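import Mathlib

/-!
P370, block ORTH.  Orthonormalisation of a nearly orthonormal family for a positive semidefinite
symmetric bilinear form, and transfer of bilinear / quadrilinear bounds.
-/

namespace Vale.Agent.P370.H890

open Finset

noncomputable section

variable {V : Type*} [AddCommGroup V] [Module ℝ V]

/-- A positive semidefinite symmetric bilinear form. -/
structure PSD (b : V →ₗ[ℝ] V →ₗ[ℝ] ℝ) : Prop where
  symm : ∀ x y, b x y = b y x
  nonneg : ∀ x, 0 ≤ b x x

/-- the seminorm of `b` -/
def nb (b : V →ₗ[ℝ] V →ₗ[ℝ] ℝ) (x : V) : ℝ := Real.sqrt (b x x)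

theorem nb_nonneg (b : V →ₗ[ℝ] V →ₗ[ℝ] ℝ) (x : V) : 0 ≤ nb b x := Real.sqrt_nonneg _

variable {b : V →ₗ[ℝ] V →ₗ[ℝ] ℝ}

theorem nb_sq (hb : PSD b) (x : V) : nb b x ^ 2 = b x x := Real.sq_sqrt (hb.nonneg x)

theorem cs_sq (hb : PSD b) (x y : V) : b x y ^ 2 ≤ b x x * b y y := by
  have key : ∀ t : ℝ, 0 ≤ b x x + 2 * t * b x y + t ^ 2 * b y y := by
    intro t
    have h := hb.nonneg (x + t • y)
    simp only [map_add, map_smul, LinearMap.add_apply, LinearMap.smul_apply, smul_eq_mul,
      hb.symm y x] at h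
    nlinarith
  by_cases hy : b y y = 0
  · have hxy : b x y = 0 := by
      by_contra hne
      have h1 := key (-(b x x + 1) / (2 * b x y))
      rw [hy] at h1
      have h2 : 2 * (-(b x x + 1) / (2 * b x y)) * b x y = -(b x x + 1) := by
        field_simp
      rw [h2] at h1
      linarith
    rw [hxy, hy]; simp
  · have hy' : 0 < b y y := lt_of_le_of_ne (hb.nonneg y) (Ne.symm hy)
    have h1 := key (-(b x y) / b y y)
    have h2 : b x x + 2 * (-(b x y) / b y y) * b x y + (-(b x y) / b y y) ^ 2 * b y y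
        = b x x - b x y ^ 2 / b y y := by
      field_simp; ring
    rw [h2] at h1
    have h3 : b x y ^ 2 / b y y ≤ b x x := by linarith
    rwa [div_le_iff₀ hy'] at h3

theorem cs (hb : PSD b) (x y : V) : |b x y| ≤ nb b x * nb b y := by
  rw [← Real.sqrt_sq_eq_abs]
  unfold nb
  rw [← Real.sqrt_mul (hb.nonneg x)]
  exact Real.sqrt_le_sqrt (cs_sq hb x y)

theorem nb_add (hb : PSD b) (x y : V) : nb b (x + y) ≤ nb b x + nb b y := by
  have h1 := nb_nonneg b x
  have h2 := nb_nonneg b y
  apply Real.sqrt_le_iff.2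
  refine ⟨by positivity, ?_⟩
  have h3 := (abs_le.1 (cs hb x y)).2
  simp only [map_add, LinearMap.add_apply, hb.symm y x]
  nlinarith [nb_sq hb x, nb_sq hb y]

theorem nb_smul (c : ℝ) (x : V) : nb b (c • x) = |c| * nb b x := by
  unfold nb
  simp only [map_smul, LinearMap.smul_apply, smul_eq_mul]
  rw [show c * (c * b x x) = c ^ 2 * b x x by ring, Real.sqrt_mul (sq_nonneg c),
    Real.sqrt_sq_eq_abs]

theorem nb_zero : nb b 0 = 0 := by simp [nb]

theorem nb_neg (x : V) : nb b (-x) = nb b x := by simp [nb]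

theorem nb_sub (hb : PSD b) (x y : V) : nb b (x - y) ≤ nb b x + nb b y := by
  rw [sub_eq_add_neg, ← nb_neg (b := b) y]
  exact nb_add hb x (-y)

theorem nb_sum (hb : PSD b) {ι : Type*} (s : Finset ι) (f : ι → V) :
    nb b (∑ i ∈ s, f i) ≤ ∑ i ∈ s, nb b (f i) := by
  classical
  induction s using Finset.induction_on with
  | empty => simp [nb_zero]
  | insert a s ha ih =>
      rw [sum_insert ha, sum_insert ha]
      exact (nb_add hb _ _).trans (by linarith)

/-- Gram–Schmidt with control of the coefficients. -/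
theorem exists_coeff (hb : PSD b) {η : ℝ} (hη : 0 ≤ η) :
    ∀ (D : ℕ) (C : Fin D → V), (∀ i j, |b (C i) (C j) - if i = j then 1 else 0| ≤ η) →
      16 * D * η ≤ 1 →
      ∃ A : Fin D → Fin D → ℝ,
        (∀ i k, b (∑ j, A i j • C j) (∑ j, A k j • C j) = if i = k then 1 else 0) ∧
        ∀ i, ∑ j, |A i j - if i = j then 1 else 0| ≤ 8 * D * η := by
  intro D
  induction D with
  | zero =>
      intro C _ _
      exact ⟨fun i => i.elim0, fun i => i.elim0, fun i => i.elim0⟩
  | succ D ih =>
      intro C hC hD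
      have hD' : 16 * (D : ℝ) * η ≤ 1 := by
        push_cast at hD; nlinarith
      obtain ⟨A, hA1, hA2⟩ := ih (fun i => C i.castSucc) (fun i j => by
        have := hC i.castSucc j.castSucc
        simpa [Fin.castSucc_inj] using this) hD'
      set e : Fin D → V := fun i => ∑ j, A i j • C j.castSucc with he
      set c : V := C (Fin.last D) with hc
      -- coefficients
      set β : Fin D → ℝ := fun k => b c (e k) with hβ
      have hAabs : ∀ i, ∑ j, |A i j| ≤ 3 / 2 := by
        intro i
        have h1 : ∀ j, |A i j| ≤ |A i j - if i = j then 1 else 0| + (if i = j then 1 else 0) := by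
          intro j
          have h := abs_add_le (A i j - if i = j then 1 else 0) (if i = j then 1 else 0)
          rw [sub_add_cancel] at h
          refine h.trans (le_of_eq ?_)
          congr 1
          split_ifs <;> simp
        calc ∑ j, |A i j| ≤ ∑ j, (|A i j - if i = j then 1 else 0| + (if i = j then 1 else 0)) :=
              sum_le_sum fun j _ => h1 j
          _ = (∑ j, |A i j - if i = j then 1 else 0|) + 1 := by
              rw [sum_add_distrib]; simp
          _ ≤ 8 * D * η + 1 := by linarith [hA2 i]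
          _ ≤ 3 / 2 := by linarith
      have hβb : ∀ k, |β k| ≤ 3 / 2 * η := by
        intro k
        have h1 : β k = ∑ j, A k j * b c (C j.castSucc) := by
          simp only [hβ, he, map_sum, map_smul, smul_eq_mul]
        rw [h1]
        calc |∑ j, A k j * b c (C j.castSucc)| ≤ ∑ j, |A k j * b c (C j.castSucc)| :=
              abs_sum_le_sum_abs _ _
          _ ≤ ∑ j, |A k j| * η := by
              refine sum_le_sum fun j _ => ?_
              rw [abs_mul]
              refine mul_le_mul_of_nonneg_left ?_ (abs_nonneg _)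
              have := hC (Fin.last D) j.castSucc
              have hne : Fin.last D ≠ j.castSucc := (Fin.castSucc_lt_last j).ne'
              rw [if_neg hne, sub_zero] at this
              exact this
          _ = (∑ j, |A k j|) * η := by rw [sum_mul]
          _ ≤ 3 / 2 * η := mul_le_mul_of_nonneg_right (hAabs k) hη
      -- the new vector
      set w : V := c - ∑ k, β k • e k with hw
      have hew : ∀ k, b w (e k) = 0 := by
        intro k
        simp only [hw, map_sub, LinearMap.sub_apply, map_sum, LinearMap.sum_apply, map_smul,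
          LinearMap.smul_apply, smul_eq_mul]
        rw [Finset.sum_congr rfl (fun i _ => by rw [hA1 i k])]
        simp [hβ]
      have hww : b w w = b c c - ∑ k, β k ^ 2 := by
        have h1 : b w w = b w c := by
          have h2 : b w w = b w c - ∑ k, b w (β k • e k) := by
            rw [← map_sum, ← map_sub]
          rw [h2, sum_eq_zero, sub_zero]
          intro k _
          rw [map_smul, hew k, smul_zero]
        rw [h1, hw, map_sub, LinearMap.sub_apply, map_sum, LinearMap.sum_apply]
        congr 1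
        refine sum_congr rfl fun k _ => ?_
        simp only [map_smul, LinearMap.smul_apply, smul_eq_mul]
        rw [hb.symm (e k) c]
        ring
      have hsumβ : ∑ k, β k ^ 2 ≤ η / 4 := by
        have h1 : ∀ k, β k ^ 2 ≤ (3 / 2 * η) ^ 2 := fun k => by
          have h2 := abs_le.1 (hβb k)
          nlinarith [h2.1, h2.2]
        calc ∑ k, β k ^ 2 ≤ ∑ _k : Fin D, (3 / 2 * η) ^ 2 := sum_le_sum fun k _ => h1 k
          _ = (9 / 4) * (D * η) * η := by rw [sum_const, card_univ, Fintype.card_fin, nsmul_eq_mul]; ring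
          _ ≤ η / 4 := by nlinarith
      have hcc := abs_le.1 (hC (Fin.last D) (Fin.last D))
      rw [if_pos rfl] at hcc
      have hη16 : η ≤ 1 / 16 := by
        push_cast at hD
        nlinarith [mul_nonneg (Nat.cast_nonneg D : (0 : ℝ) ≤ D) hη]
      have hsum0 : 0 ≤ ∑ k, β k ^ 2 := sum_nonneg fun k _ => sq_nonneg _
      have hwlo : 1 - 5 / 4 * η ≤ b w w := by
        rw [hww]; linarith [hcc.1]
      have hwhi : b w w ≤ 1 + η := by
        rw [hww]; linarith [hcc.2]
      have hwpos : 0 < b w w := by linarith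
      set r : ℝ := 1 / Real.sqrt (b w w) with hr
      have hsq := Real.sq_sqrt hwpos.le
      have hspos := Real.sqrt_pos.2 hwpos
      have hrpos : 0 < r := by positivity
      have hr2 : r * r * b w w = 1 := by
        rw [hr]; field_simp; rw [sq] at hsq; linarith
      have hrb : |r - 1| ≤ η := by
        -- r ≤ 1 + η and r ≥ 1 - η
        rw [abs_le]
        constructor
        · by_contra hcon
          push Not at hcon
          have h1 : r < 1 - η := by linarith
          have h2 : r * r * b w w < 1 := by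
            have h3 : r * r < (1 - η) * (1 - η) := by nlinarith
            have h4 : r * r * b w w ≤ r * r * (1 + η) :=
              mul_le_mul_of_nonneg_left hwhi (by positivity)
            have h5 : r * r * (1 + η) < (1 - η) * (1 - η) * (1 + η) :=
              mul_lt_mul_of_pos_right h3 (by linarith)
            have h6 : (1 - η) * (1 - η) * (1 + η) ≤ 1 := by
              nlinarith [mul_nonneg (mul_nonneg hη hη) (by linarith : (0 : ℝ) ≤ 1 - η)]
            linarith
          linarith
        · by_contra hcon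
          push Not at hcon
          have h1 : 1 + η < r := by linarith
          have h3 : (1 + η) * (1 + η) < r * r := by nlinarith
          have h4 : (1 + η) * (1 + η) * (1 - 5 / 4 * η) ≤ (1 + η) * (1 + η) * b w w :=
            mul_le_mul_of_nonneg_left hwlo (by positivity)
          have h5 : (1 + η) * (1 + η) * b w w < r * r * b w w :=
            mul_lt_mul_of_pos_right h3 hwpos
          have h6 : 1 ≤ (1 + η) * (1 + η) * (1 - 5 / 4 * η) := by
            have h7 : η * η ≤ 1 / 16 * η := mul_le_mul_of_nonneg_right hη16 hη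
            have h8 : η * (η * η) ≤ η * (1 / 16 * η) := mul_le_mul_of_nonneg_left h7 hη
            nlinarith
          linarith
      -- the new coefficient matrix
      let A' : Fin (D + 1) → Fin (D + 1) → ℝ := fun i =>
        Fin.lastCases (motive := fun _ => Fin (D + 1) → ℝ)
          (fun j => Fin.lastCases (motive := fun _ => ℝ) r (fun j => -r * ∑ k, β k * A k j) j)
          (fun i j => Fin.lastCases (motive := fun _ => ℝ) 0 (fun j => A i j) j) i
      have hcast : ∀ i : Fin D, ∑ j, A' i.castSucc j • C j = e i := by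
        intro i
        rw [Fin.sum_univ_castSucc]
        simp [A', he]
      have hlast : ∑ j, A' (Fin.last D) j • C j = r • w := by
        rw [Fin.sum_univ_castSucc]
        simp only [A', Fin.lastCases_last, Fin.lastCases_castSucc]
        rw [hw, smul_sub, ← hc, add_comm, sub_eq_add_neg]
        congr 1
        rw [Finset.smul_sum, ← Finset.sum_neg_distrib]
        simp only [he, Finset.smul_sum, smul_smul]
        rw [Finset.sum_congr rfl (fun k _ => Finset.sum_neg_distrib _ |>.symm)]
        rw [Finset.sum_comm]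
        refine sum_congr rfl fun j _ => ?_
        rw [mul_sum, sum_smul]
        refine sum_congr rfl fun k _ => ?_
        rw [← neg_smul]
        congr 1
        ring
      refine ⟨A', ?_, ?_⟩
      · intro i k
        refine Fin.lastCases ?_ (fun i => ?_) i
        · refine Fin.lastCases ?_ (fun k => ?_) k
          · rw [hlast, if_pos rfl]
            simp only [map_smul, LinearMap.smul_apply, smul_eq_mul]
            linarith
          · rw [hlast, hcast, if_neg (Fin.castSucc_lt_last k).ne']
            simp only [map_smul, LinearMap.smul_apply, smul_eq_mul, hew, mul_zero]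
        · refine Fin.lastCases ?_ (fun k => ?_) k
          · rw [hlast, hcast, if_neg (Fin.castSucc_lt_last i).ne, hb.symm]
            simp only [map_smul, LinearMap.smul_apply, smul_eq_mul, hew, mul_zero]
          · rw [hcast, hcast, hA1]
            simp [Fin.castSucc_inj]
      · intro i
        refine Fin.lastCases ?_ (fun i => ?_) i
        · rw [Fin.sum_univ_castSucc]
          simp only [A', Fin.lastCases_last, Fin.lastCases_castSucc, if_true]
          have h1 : ∀ j : Fin D, |(-r * ∑ k, β k * A k j) -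
              if Fin.last D = j.castSucc then (1 : ℝ) else 0| ≤ 3 / 2 * ∑ k, |β k| * |A k j| := by
            intro j
            rw [if_neg (Fin.castSucc_lt_last j).ne', sub_zero, abs_mul, abs_neg, abs_of_pos hrpos]
            have h2 : r ≤ 3 / 2 := by
              have := (abs_le.1 hrb).2; linarith
            have h3 : |∑ k, β k * A k j| ≤ ∑ k, |β k| * |A k j| := by
              refine (abs_sum_le_sum_abs _ _).trans (le_of_eq ?_)
              exact sum_congr rfl fun k _ => abs_mul _ _
            exact mul_le_mul h2 h3 (abs_nonneg _) (by norm_num)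
          have h4 : ∑ j : Fin D, 3 / 2 * ∑ k, |β k| * |A k j| ≤ 27 / 8 * D * η := by
            rw [← mul_sum, sum_comm]
            have h5 : ∀ k : Fin D, ∑ j, |β k| * |A k j| ≤ 3 / 2 * η * (3 / 2) := by
              intro k
              rw [← mul_sum]
              exact mul_le_mul (hβb k) (hAabs k) (sum_nonneg fun _ _ => abs_nonneg _)
                (by positivity)
            have h6 : ∑ k : Fin D, ∑ j, |β k| * |A k j| ≤ ∑ _k : Fin D, 3 / 2 * η * (3 / 2) :=
              sum_le_sum fun k _ => h5 k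
            rw [sum_const, card_univ, Fintype.card_fin, nsmul_eq_mul] at h6
            nlinarith
          have h7 := sum_le_sum fun (j : Fin D) (_ : j ∈ univ) => h1 j
          push_cast
          nlinarith [mul_nonneg (Nat.cast_nonneg D : (0 : ℝ) ≤ D) hη]
        · rw [Fin.sum_univ_castSucc]
          simp only [A', Fin.lastCases_last, Fin.lastCases_castSucc]
          rw [if_neg (Fin.castSucc_lt_last i).ne]
          simp only [Fin.castSucc_inj, sub_zero, abs_zero, add_zero]
          refine (hA2 i).trans ?_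
          push_cast
          nlinarith

/-! ### Near-identity coefficient matrices -/

/-- `A` is near the identity (row sums of the difference at most `ε`). -/
def NearId {D : ℕ} (A : Fin D → Fin D → ℝ) (ε : ℝ) : Prop :=
  ∀ i, ∑ j, |A i j - if i = j then 1 else 0| ≤ ε

theorem NearId.row {D : ℕ} {A : Fin D → Fin D → ℝ} {ε : ℝ} (hA : NearId A ε) (i : Fin D) :
    ∑ j, |A i j| ≤ 1 + ε := by
  have h1 : ∀ j, |A i j| ≤ |A i j - if i = j then 1 else 0| + (if i = j then 1 else 0) := by
    intro j
    have h := abs_add_le (A i j - if i = j then 1 else 0) (if i = j then 1 else 0)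
    rw [sub_add_cancel] at h
    refine h.trans (le_of_eq ?_)
    congr 1
    split_ifs <;> simp
  calc ∑ j, |A i j| ≤ ∑ j, (|A i j - if i = j then 1 else 0| + (if i = j then 1 else 0)) :=
        sum_le_sum fun j _ => h1 j
    _ = (∑ j, |A i j - if i = j then 1 else 0|) + 1 := by rw [sum_add_distrib]; simp
    _ ≤ 1 + ε := by linarith [hA i]

/-- applying a near-identity row to a bounded vector -/
theorem NearId.apply {D : ℕ} {A : Fin D → Fin D → ℝ} {ε : ℝ} (hA : NearId A ε) (i : Fin D)
    {v : Fin D → ℝ} {γ : ℝ} (hv : ∀ j, |v j| ≤ γ) : |∑ j, A i j * v j - v i| ≤ ε * γ := by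
  have hγ : 0 ≤ γ := (abs_nonneg _).trans (hv i)
  have h1 : ∑ j, A i j * v j - v i = ∑ j, (A i j - if i = j then 1 else 0) * v j := by
    simp only [sub_mul, sum_sub_distrib, ite_mul, one_mul, zero_mul, sum_ite_eq, mem_univ, if_true]
  rw [h1]
  calc |∑ j, (A i j - if i = j then 1 else 0) * v j|
      ≤ ∑ j, |(A i j - if i = j then 1 else 0) * v j| := abs_sum_le_sum_abs _ _
    _ ≤ ∑ j, |A i j - if i = j then 1 else 0| * γ := by
        refine sum_le_sum fun j _ => ?_
        rw [abs_mul]
        exact mul_le_mul_of_nonneg_left (hv j) (abs_nonneg _)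
    _ = (∑ j, |A i j - if i = j then 1 else 0|) * γ := by rw [sum_mul]
    _ ≤ ε * γ := mul_le_mul_of_nonneg_right (hA i) hγ

theorem NearId.bound {D : ℕ} {A : Fin D → Fin D → ℝ} {ε : ℝ} (hA : NearId A ε) (i : Fin D)
    {v : Fin D → ℝ} {γ : ℝ} (hv : ∀ j, |v j| ≤ γ) : |∑ j, A i j * v j| ≤ (1 + ε) * γ := by
  have hγ : 0 ≤ γ := (abs_nonneg _).trans (hv i)
  calc |∑ j, A i j * v j| ≤ ∑ j, |A i j * v j| := abs_sum_le_sum_abs _ _
    _ ≤ ∑ j, |A i j| * γ := by
        refine sum_le_sum fun j _ => ?_
        rw [abs_mul]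
        exact mul_le_mul_of_nonneg_left (hv j) (abs_nonneg _)
    _ = (∑ j, |A i j|) * γ := by rw [sum_mul]
    _ ≤ (1 + ε) * γ := mul_le_mul_of_nonneg_right (hA.row i) hγ

/-- a near-identity matrix is injective -/
theorem NearId.inj {D : ℕ} {A : Fin D → Fin D → ℝ} {ε : ℝ} (hA : NearId A ε) (hε : ε < 1)
    {v : Fin D → ℝ} (hv : ∀ i, ∑ j, A i j * v j = 0) : ∀ j, v j = 0 := by
  rcases Nat.eq_zero_or_pos D with h0 | hpos
  · subst h0; exact fun j => j.elim0
  · have : Nonempty (Fin D) := ⟨⟨0, hpos⟩⟩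
    obtain ⟨i, -, hi⟩ := Finset.exists_max_image (univ : Finset (Fin D)) (fun j => |v j|)
      univ_nonempty
    have h1 := hA.apply i (v := v) (γ := |v i|) (fun j => hi j (mem_univ j))
    rw [hv i, zero_sub, abs_neg] at h1
    have h2 : |v i| = 0 := by
      have := abs_nonneg (v i)
      nlinarith
    intro j
    have h3 := hi j (mem_univ j)
    rw [h2] at h3
    exact abs_eq_zero.1 (le_antisymm h3 (abs_nonneg _))

/-- transfer of a matrix of bounded entries -/
theorem NearId.two {D : ℕ} {A : Fin D → Fin D → ℝ} {ε : ℝ} (hA : NearId A ε)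
    {B : Fin D → Fin D → ℝ} {γ : ℝ} (hB : ∀ p q, |B p q| ≤ γ) (i j : Fin D) :
    |(∑ p, A i p * ∑ q, A j q * B p q) - B i j| ≤ (ε * (1 + ε) + ε) * γ := by
  have h1 : ∀ p, |∑ q, A j q * B p q| ≤ (1 + ε) * γ := fun p => hA.bound j (hB p)
  have h2 := hA.apply i h1
  have h3 := hA.apply j (hB i)
  have h4 := abs_add_le ((∑ p, A i p * ∑ q, A j q * B p q) - ∑ q, A j q * B i q)
    ((∑ q, A j q * B i q) - B i j)
  rw [sub_add_sub_cancel] at h4
  refine h4.trans ((add_le_add h2 h3).trans (le_of_eq ?_))
  ring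

/-- transfer of a 4-tensor of bounded entries -/
theorem NearId.four {D : ℕ} {A : Fin D → Fin D → ℝ} {ε : ℝ} (hA : NearId A ε) (hε0 : 0 ≤ ε)
    (hε : ε ≤ 1 / 2) {G : Fin D → Fin D → Fin D → Fin D → ℝ} {γ : ℝ}
    (hG : ∀ p q r s, |G p q r s| ≤ γ) (i j k l : Fin D) :
    |(∑ p, A i p * ∑ q, A j q * ∑ r, A k r * ∑ s, A l s * G p q r s) - G i j k l|
      ≤ 9 * ε * γ := by
  have hγ : 0 ≤ γ := (abs_nonneg _).trans (hG i i i i)
  have b1 : ∀ p q r, |∑ s, A l s * G p q r s| ≤ (1 + ε) * γ := fun p q r => hA.bound l (hG p q r)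
  have b2 : ∀ p q, |∑ r, A k r * ∑ s, A l s * G p q r s| ≤ (1 + ε) * ((1 + ε) * γ) :=
    fun p q => hA.bound k (b1 p q)
  have b3 : ∀ p, |∑ q, A j q * ∑ r, A k r * ∑ s, A l s * G p q r s|
      ≤ (1 + ε) * ((1 + ε) * ((1 + ε) * γ)) := fun p => hA.bound j (b2 p)
  have a1 := hA.apply i b3
  have a2 := hA.apply j (b2 i)
  have a3 := hA.apply k (b1 i j)
  have a4 := hA.apply l (hG i j k)
  have t1 := abs_sub_le (∑ p, A i p * ∑ q, A j q * ∑ r, A k r * ∑ s, A l s * G p q r s)
    (∑ q, A j q * ∑ r, A k r * ∑ s, A l s * G i q r s) (G i j k l)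
  have t2 := abs_sub_le (∑ q, A j q * ∑ r, A k r * ∑ s, A l s * G i q r s)
    (∑ r, A k r * ∑ s, A l s * G i j r s) (G i j k l)
  have t3 := abs_sub_le (∑ r, A k r * ∑ s, A l s * G i j r s) (∑ s, A l s * G i j k s) (G i j k l)
  have e2 : ε ^ 2 ≤ 1 / 2 * ε := by nlinarith
  have e3 : ε ^ 3 ≤ 1 / 4 * ε := by nlinarith [mul_nonneg hε0 hε0]
  have e4 : ε ^ 4 ≤ 1 / 8 * ε := by nlinarith [mul_nonneg hε0 hε0, mul_nonneg (mul_nonneg hε0 hε0) hε0]
  have key : ε * ((1 + ε) * ((1 + ε) * ((1 + ε) * γ))) + ε * ((1 + ε) * ((1 + ε) * γ)) +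
      ε * ((1 + ε) * γ) + ε * γ ≤ 9 * ε * γ := by
    have : ε * ((1 + ε) * ((1 + ε) * ((1 + ε) * γ))) + ε * ((1 + ε) * ((1 + ε) * γ)) +
      ε * ((1 + ε) * γ) + ε * γ = (4 * ε + 6 * ε ^ 2 + 4 * ε ^ 3 + ε ^ 4) * γ := by ring
    rw [this]
    exact mul_le_mul_of_nonneg_right (by linarith) hγ
  linarith

/-! ### The main statement -/

/-- **ORTH**: an orthonormal family `e` in the span of a nearly orthonormal family `C`, with the
transfer of all bounds.  `ε = 8 D η`. -/
structure OrthOut (b : V →ₗ[ℝ] V →ₗ[ℝ] ℝ) {D : ℕ} (C e : Fin D → V) (A : Fin D → Fin D → ℝ)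
    (ε : ℝ) : Prop where
  near : NearId A ε
  eq : ∀ i, e i = ∑ j, A i j • C j
  on : ∀ i k, b (e i) (e k) = if i = k then 1 else 0
  nonneg : 0 ≤ ε
  half : ε ≤ 1 / 2

theorem exists_orth (hb : PSD b) {D : ℕ} (C : Fin D → V) {η : ℝ} (hη : 0 ≤ η)
    (hC : ∀ i j, |b (C i) (C j) - if i = j then 1 else 0| ≤ η) (hD : 16 * D * η ≤ 1) :
    ∃ (e : Fin D → V) (A : Fin D → Fin D → ℝ), OrthOut b C e A (8 * D * η) := by
  obtain ⟨A, h1, h2⟩ := exists_coeff hb hη D C hC hD
  exact ⟨fun i => ∑ j, A i j • C j, A, h2, fun _ => rfl, h1, by positivity, by linarith⟩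

namespace OrthOut

variable {D : ℕ} {C e : Fin D → V} {A : Fin D → Fin D → ℝ} {ε : ℝ}

/-- the `e i` lie in any submodule containing the `C i` -/
theorem mem (h : OrthOut b C e A ε) (W : Submodule ℝ V) (hC : ∀ i, C i ∈ W) (i : Fin D) :
    e i ∈ W := by
  rw [h.eq i]
  exact W.sum_mem fun j _ => W.smul_mem _ (hC j)

/-- distance of `e i` and `C i` for any seminorm bound of the `C`'s -/
theorem dist (h : OrthOut b C e A ε) (hb : PSD b) {γ : ℝ} (hC : ∀ j, nb b (C j) ≤ γ) (i : Fin D) :
    nb b (e i - C i) ≤ ε * γ := by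
  have hγ : 0 ≤ γ := (nb_nonneg b _).trans (hC i)
  have h1 : e i - C i = ∑ j, (A i j - if i = j then 1 else 0) • C j := by
    rw [h.eq i]
    simp only [sub_smul, sum_sub_distrib, ite_smul, one_smul, zero_smul, sum_ite_eq, mem_univ,
      if_true]
  rw [h1]
  calc nb b (∑ j, (A i j - if i = j then 1 else 0) • C j)
      ≤ ∑ j, nb b ((A i j - if i = j then 1 else 0) • C j) := nb_sum hb _ _
    _ ≤ ∑ j, |A i j - if i = j then 1 else 0| * γ := by
        refine sum_le_sum fun j _ => ?_
        rw [nb_smul]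
        exact mul_le_mul_of_nonneg_left (hC j) (abs_nonneg _)
    _ = (∑ j, |A i j - if i = j then 1 else 0|) * γ := by rw [sum_mul]
    _ ≤ ε * γ := mul_le_mul_of_nonneg_right (h.near i) hγ

/-- vectors orthogonal to the `e`'s are orthogonal to the `C`'s -/
theorem perp (h : OrthOut b C e A ε) {x : V} (hx : ∀ i, b x (e i) = 0) (j : Fin D) :
    b x (C j) = 0 := by
  refine h.near.inj (by linarith [h.half]) (v := fun j => b x (C j)) (fun i => ?_) j
  have h1 := hx i
  rw [h.eq i, map_sum] at h1
  simpa only [map_smul, smul_eq_mul] using h1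

/-- vectors orthogonal to the `C`'s are orthogonal to the `e`'s -/
theorem perp' (h : OrthOut b C e A ε) {x : V} (hx : ∀ i, b x (C i) = 0) (j : Fin D) :
    b x (e j) = 0 := by
  rw [h.eq j, map_sum]
  refine sum_eq_zero fun i _ => ?_
  rw [map_smul, hx i, smul_zero]

/-- transfer of a linear form -/
theorem lin (h : OrthOut b C e A ε) (F : V →ₗ[ℝ] ℝ) {γ : ℝ} (hF : ∀ j, |F (C j)| ≤ γ) (i : Fin D) :
    |F (e i) - F (C i)| ≤ ε * γ := by
  have h1 : F (e i) = ∑ j, A i j * F (C j) := by
    rw [h.eq i, map_sum]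
    simp only [map_smul, smul_eq_mul]
  rw [h1]
  exact h.near.apply i hF

/-- bound of a linear form -/
theorem lin_bound (h : OrthOut b C e A ε) (F : V →ₗ[ℝ] ℝ) {γ : ℝ} (hF : ∀ j, |F (C j)| ≤ γ)
    (i : Fin D) : |F (e i)| ≤ (1 + ε) * γ := by
  have h1 : F (e i) = ∑ j, A i j * F (C j) := by
    rw [h.eq i, map_sum]
    simp only [map_smul, smul_eq_mul]
  rw [h1]
  exact h.near.bound i hF

/-- transfer of a bilinear form with bounded entries on the `C`'s -/
theorem bil (h : OrthOut b C e A ε) (B : V →ₗ[ℝ] V →ₗ[ℝ] ℝ) {γ : ℝ}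
    (hB : ∀ i j, |B (C i) (C j)| ≤ γ) (i j : Fin D) :
    |B (e i) (e j) - B (C i) (C j)| ≤ 3 * ε * γ := by
  have hγ : 0 ≤ γ := (abs_nonneg _).trans (hB i i)
  have h5 : ∀ y, B (e i) y = ∑ p, A i p * B (C p) y := fun y => by
    rw [h.eq i, map_sum, LinearMap.sum_apply]
    simp only [map_smul, LinearMap.smul_apply, smul_eq_mul]
  have h6 : ∀ x, B x (e j) = ∑ q, A j q * B x (C q) := fun x => by
    rw [h.eq j, map_sum]
    simp only [map_smul, smul_eq_mul]
  have h1 : B (e i) (e j) = ∑ p, A i p * ∑ q, A j q * B (C p) (C q) := by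
    rw [h5]
    exact sum_congr rfl fun p _ => by rw [h6]
  rw [h1]
  refine (h.near.two hB i j).trans ?_
  have h2 := h.nonneg
  have h3 := h.half
  have : ε * (1 + ε) + ε ≤ 3 * ε := by nlinarith
  exact mul_le_mul_of_nonneg_right this hγ

/-- transfer of a 4-linear form (given by its expansion) with bounded entries on the `C`'s -/
theorem quad (h : OrthOut b C e A ε) (G : V → V → V → V → ℝ)
    (hlin : ∀ i j k l, G (e i) (e j) (e k) (e l) =
      ∑ p, A i p * ∑ q, A j q * ∑ r, A k r * ∑ s, A l s * G (C p) (C q) (C r) (C s)) {γ : ℝ}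
    (hG : ∀ i j k l, |G (C i) (C j) (C k) (C l)| ≤ γ) (i j k l : Fin D) :
    |G (e i) (e j) (e k) (e l) - G (C i) (C j) (C k) (C l)| ≤ 9 * ε * γ := by
  rw [hlin]
  exact h.near.four h.nonneg h.half hG i j k l

/-- the expansion hypothesis of `quad` holds if `G` is linear in each argument -/
theorem expand4 (h : OrthOut b C e A ε) (G : V →ₗ[ℝ] V →ₗ[ℝ] V →ₗ[ℝ] V →ₗ[ℝ] ℝ) (i j k l : Fin D) :
    G (e i) (e j) (e k) (e l) =
      ∑ p, A i p * ∑ q, A j q * ∑ r, A k r * ∑ s, A l s * G (C p) (C q) (C r) (C s) := by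
  have h4 : ∀ x y z, G x y z (e l) = ∑ s, A l s * G x y z (C s) := fun x y z => by
    rw [h.eq l, map_sum]; simp only [map_smul, smul_eq_mul]
  have h3 : ∀ x y w, G x y (e k) w = ∑ r, A k r * G x y (C r) w := fun x y w => by
    rw [h.eq k, map_sum, LinearMap.sum_apply]
    simp only [map_smul, LinearMap.smul_apply, smul_eq_mul]
  have h2 : ∀ x z w, G x (e j) z w = ∑ q, A j q * G x (C q) z w := fun x z w => by
    rw [h.eq j, map_sum, LinearMap.sum_apply, LinearMap.sum_apply]
    simp only [map_smul, LinearMap.smul_apply, smul_eq_mul]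
  have h1 : ∀ y z w, G (e i) y z w = ∑ p, A i p * G (C p) y z w := fun y z w => by
    rw [h.eq i, map_sum, LinearMap.sum_apply, LinearMap.sum_apply, LinearMap.sum_apply]
    simp only [map_smul, LinearMap.smul_apply, smul_eq_mul]
  rw [h1]
  refine sum_congr rfl fun p _ => ?_
  rw [h2]
  congr 1
  refine sum_congr rfl fun q _ => ?_
  rw [h3]
  congr 1
  refine sum_congr rfl fun r _ => ?_
  rw [h4]

/-- overlaps of `C` with `e` -/
theorem overlap (h : OrthOut b C e A ε) {η : ℝ} (hη1 : η ≤ 1)
    (hC : ∀ i j, |b (C i) (C j) - if i = j then 1 else 0| ≤ η) (k i : Fin D) :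
    |b (C k) (e i) - if k = i then 1 else 0| ≤ 2 * ε + η := by
  have hγ : ∀ j, |b (C k) (C j)| ≤ 1 + η := by
    intro j
    have h1 := abs_add_le (b (C k) (C j) - if k = j then 1 else 0) (if k = j then 1 else 0)
    rw [sub_add_cancel] at h1
    have h2 : |(if k = j then (1 : ℝ) else 0)| ≤ 1 := by split_ifs <;> simp
    linarith [hC k j]
  have h1 := h.lin (b (C k)) hγ i
  have h2 := abs_sub_le (b (C k) (e i)) (b (C k) (C i)) (if k = i then 1 else 0)
  have h3 := h.nonneg
  nlinarith [hC k i]

end OrthOut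

/-! ### The selection form -/

section selection

variable {D : ℕ} {C S e : Fin D → V} {A : Fin D → Fin D → ℝ} {ε : ℝ}

/-- the rank two (per ring) selection form `- ∑ (⟨C_i,x⟩⟨C_i,y⟩ - ⟨S_i,x⟩⟨S_i,y⟩)` -/
def sel (b : V →ₗ[ℝ] V →ₗ[ℝ] ℝ) {D : ℕ} (C S : Fin D → V) (x y : V) : ℝ :=
  -∑ i, (b (C i) x * b (C i) y - b (S i) x * b (S i) y)

/-- on the orthogonal complement of the rings the selection form is nonnegative -/
theorem sel_perp_nonneg (hb : PSD b) (h : OrthOut b C e A ε) {x : V} (hx : ∀ i, b x (e i) = 0) :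
    0 ≤ sel b C S x x := by
  unfold sel
  rw [← sum_neg_distrib]
  refine sum_nonneg fun i _ => ?_
  rw [hb.symm (C i) x, h.perp hx i]
  nlinarith [mul_self_nonneg (b (S i) x)]

/-- no coupling of the rings and their complement if `C ⟂ S` -/
theorem sel_cross (hb : PSD b) (h : OrthOut b C e A ε) (hCS : ∀ i j, b (C i) (S j) = 0) {x : V}
    (hx : ∀ i, b x (e i) = 0) (i : Fin D) : sel b C S (e i) x = 0 := by
  unfold sel
  rw [neg_eq_zero]
  refine sum_eq_zero fun k _ => ?_
  have h1 : b (S k) (e i) = 0 := by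
    refine h.perp' (fun j => ?_) i
    rw [hb.symm]; exact hCS j k
  rw [hb.symm (C k) x, h.perp hx k, h1]
  ring

/-- the ring block of the selection form is `-1` up to a small error -/
theorem sel_rings (hb : PSD b) (h : OrthOut b C e A ε) {η : ℝ} (hη : 0 ≤ η) (hη1 : η ≤ 1)
    (hC : ∀ i j, |b (C i) (C j) - if i = j then 1 else 0| ≤ η)
    (hCS : ∀ i j, b (C i) (S j) = 0) (i j : Fin D) :
    |sel b C S (e i) (e j) + if i = j then 1 else 0| ≤
      2 * (2 * ε + η) + D * (2 * ε + η) ^ 2 := by
  have hS : ∀ k l, b (S k) (e l) = 0 := fun k l => by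
    refine h.perp' (fun j => ?_) l
    rw [hb.symm]; exact hCS j k
  set c : Fin D → Fin D → ℝ := fun k l => b (C k) (e l) - if k = l then 1 else 0 with hc
  have hcb : ∀ k l, |c k l| ≤ 2 * ε + η := fun k l => h.overlap hη1 hC k l
  have h1 : sel b C S (e i) (e j) + (if i = j then 1 else 0) =
      -(c i j + c j i + ∑ k, c k i * c k j) := by
    unfold sel
    have h2 : ∀ k, b (C k) (e i) * b (C k) (e j) - b (S k) (e i) * b (S k) (e j) =
        (if k = i then 1 else 0) * (if k = j then 1 else 0) + (if k = i then 1 else 0) * c k j +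
          (if k = j then 1 else 0) * c k i + c k i * c k j := by
      intro k
      rw [hS k i]
      simp only [hc]
      ring
    rw [Finset.sum_congr rfl fun k _ => h2 k]
    simp only [sum_add_distrib, ite_mul, one_mul, zero_mul, sum_ite_eq', mem_univ, if_true]
    ring
  rw [h1, abs_neg]
  have hb2 : 0 ≤ 2 * ε + η := by linarith [h.nonneg]
  have h3 : |∑ k, c k i * c k j| ≤ D * (2 * ε + η) ^ 2 := by
    calc |∑ k, c k i * c k j| ≤ ∑ k, |c k i * c k j| := abs_sum_le_sum_abs _ _
      _ ≤ ∑ _k : Fin D, (2 * ε + η) ^ 2 := by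
          refine sum_le_sum fun k _ => ?_
          rw [abs_mul, sq]
          exact mul_le_mul (hcb k i) (hcb k j) (abs_nonneg _) hb2
      _ = D * (2 * ε + η) ^ 2 := by
          rw [sum_const, card_univ, Fintype.card_fin, nsmul_eq_mul]
  have h4 := abs_add_le (c i j + c j i) (∑ k, c k i * c k j)
  have h5 := abs_add_le (c i j) (c j i)
  linarith [hcb i j, hcb j i]

end selection

end

end Vale.Agent.P370.H890
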