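import Vale.Agent.P370.H98.R2aDefs
import Vale.Agent.P370.H115.Overlap
import Vale.Agent.P370.H115.Hom
import Mathlib.Analysis.Complex.ExponentialBounds

/-! **Block R2a-PAIR**: lower bound of the resonant four-fold integrals of the rings. -/

namespace Vale.Agent.P370.H890

open MeasureTheory Set
open Vale.Agent.P370.H115 Vale.Agent.P370.H98
open Vale.Agent.P363.Stmt (R3)
open Vale.Agent.P363.R.H10
open scoped Nat

/-- `J! ≤ e J (J/e)^J` -/
theorem fact_le (J : ℕ) (hJ : 1 ≤ J) :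
    (J ! : ℝ) ≤ Real.exp 1 * J * ((J : ℝ) ^ J * Real.exp (-J)) := by
  induction J, hJ using Nat.le_induction with
  | base =>
    norm_num
    rw [← Real.exp_add]
    norm_num
  | succ J hJ ih =>
    have hJ0 : (0 : ℝ) < J := by exact_mod_cast hJ
    have hJ1 : (0 : ℝ) < (J : ℝ) + 1 := by positivity
    -- `J^(J+1) ≤ (J+1)^(J+1) e^{-1}`
    have h1 : (J : ℝ) / (J + 1) ≤ Real.exp (-(1 / ((J : ℝ) + 1))) := by
      have h := Real.add_one_le_exp (-(1 / ((J : ℝ) + 1)))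
      refine le_trans (le_of_eq ?_) h
      field_simp
      ring
    have h2 : ((J : ℝ) / (J + 1)) ^ (J + 1) ≤ Real.exp (-1) := by
      refine (pow_le_pow_left₀ (by positivity) h1 (J + 1)).trans (le_of_eq ?_)
      rw [← Real.exp_nat_mul]
      congr 1
      push_cast
      field_simp
    rw [div_pow, div_le_iff₀ (by positivity)] at h2
    have h3 : Real.exp (-((J + 1 : ℕ) : ℝ)) = Real.exp (-J) * Real.exp (-1) := by
      rw [← Real.exp_add]; congr 1; push_cast; ring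
    rw [Nat.factorial_succ, h3]
    push_cast
    calc ((J : ℝ) + 1) * (J ! : ℝ)
        ≤ (J + 1) * (Real.exp 1 * J * ((J : ℝ) ^ J * Real.exp (-J))) :=
          mul_le_mul_of_nonneg_left ih hJ1.le
      _ = (Real.exp 1 * (J + 1) * Real.exp (-J)) * (J : ℝ) ^ (J + 1) := by ring
      _ ≤ (Real.exp 1 * (J + 1) * Real.exp (-J)) * (Real.exp (-1) * ((J : ℝ) + 1) ^ (J + 1)) :=
          mul_le_mul_of_nonneg_left h2 (by positivity)
      _ = _ := by ring

theorem im_pow_le (z : ℂ) (k : ℕ) : |(z ^ (k + 1)).im| ≤ (k + 1) * |z.im| * ‖z‖ ^ k := by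
  induction k with
  | zero => simp
  | succ k ih =>
    rw [pow_succ z (k + 1), Complex.mul_im]
    have h1 : |(z ^ (k + 1)).re| ≤ ‖z‖ ^ (k + 1) := by
      rw [← norm_pow]; exact Complex.abs_re_le_norm _
    have h2 : |z.re| ≤ ‖z‖ := Complex.abs_re_le_norm z
    refine (abs_add_le _ _).trans ?_
    rw [abs_mul, abs_mul]
    have h3 : |(z ^ (k + 1)).re| * |z.im| ≤ ‖z‖ ^ (k + 1) * |z.im| :=
      mul_le_mul_of_nonneg_right h1 (abs_nonneg _)
    have h4 : |(z ^ (k + 1)).im| * |z.re| ≤ ((k + 1) * |z.im| * ‖z‖ ^ k) * ‖z‖ :=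
      mul_le_mul ih h2 (abs_nonneg _) (by positivity)
    push_cast
    calc _ ≤ ‖z‖ ^ (k + 1) * |z.im| + ((k + 1) * |z.im| * ‖z‖ ^ k) * ‖z‖ := add_le_add h3 h4
      _ = _ := by ring

/-- the box near `n J e_z` -/
def bx (n : ℕ) : Set R3 :=
  {x | |x 0| ≤ n / 4 ∧ |x 1| ≤ n / 4 ∧ (n : ℝ) * ((n : ℝ) - 1) ≤ x 2 ∧
    x 2 ≤ (n : ℝ) * ((n : ℝ) - 1) + n}

theorem numeric : Real.pi * Real.exp (33 / 8) ≤ 218 := by
  have h1 : Real.exp (1 / 8) ≤ 1.134 := by
    by_contra h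
    rw [not_le] at h
    have h2 : (1.134 : ℝ) ^ 8 < Real.exp (1 / 8) ^ 8 := pow_lt_pow_left₀ h (by norm_num) (by norm_num)
    rw [← Real.exp_nat_mul] at h2
    norm_num at h2
    have := Real.exp_one_lt_d9
    linarith
  have h2 : Real.exp (33 / 8) = Real.exp 1 ^ 4 * Real.exp (1 / 8) := by
    rw [← Real.exp_nat_mul, ← Real.exp_add]; norm_num
  have h3 : Real.exp 1 ^ 4 ≤ 2.7183 ^ 4 :=
    pow_le_pow_left₀ (Real.exp_pos _).le (by linarith [Real.exp_one_lt_d9]) 4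
  have h4 : Real.exp 1 ^ 4 * Real.exp (1 / 8) ≤ 2.7183 ^ 4 * 1.134 :=
    mul_le_mul h3 h1 (Real.exp_pos _).le (by norm_num)
  have h5 : Real.pi ≤ 3.15 := Real.pi_lt_d2.le
  rw [h2]
  calc Real.pi * (Real.exp 1 ^ 4 * Real.exp (1 / 8)) ≤ 3.15 * (2.7183 ^ 4 * 1.134) :=
        mul_le_mul h5 h4 (by positivity) (by norm_num)
    _ ≤ 218 := by norm_num

theorem ringC_sq_ge (n : ℕ) (hn : 2 ≤ n) (a : ℝ) (x : R3) (hx : x ∈ bx n) :
    1 / (125 * (n : ℝ) ^ 6) ≤ ringC n a x ^ 2 := by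
  obtain ⟨k, rfl⟩ : ∃ k, n = k + 2 := ⟨n - 2, by omega⟩
  obtain ⟨h0, h1, h2, h2'⟩ := hx
  set N : ℝ := ((k + 2 : ℕ) : ℝ) with hN
  set J : ℝ := ((k + 1 : ℕ) : ℝ) with hJ
  have hNJ : N = J + 1 := by rw [hN, hJ]; push_cast; ring
  have hJ1 : 1 ≤ J := by rw [hJ]; push_cast; linarith [Nat.cast_nonneg (α := ℝ) k]
  have hN0 : 0 < N := by linarith
  have hN1 : N - 1 = J := by linarith
  rw [hN1] at h2 h2'
  have h0s : x 0 ^ 2 ≤ (N / 4) ^ 2 := sq_le_sq' (by linarith [abs_le.1 h0]) (abs_le.1 h0).2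
  have h1s : x 1 ^ 2 ≤ (N / 4) ^ 2 := sq_le_sq' (by linarith [abs_le.1 h1]) (abs_le.1 h1).2
  have hNJ0 : 0 < N * J := by positivity
  have hx2 : (N * J) ^ 2 ≤ x 2 ^ 2 := pow_le_pow_left₀ hNJ0.le h2 2
  -- the transversal coordinate
  have hw : wco a x ^ 2 ≤ N ^ 2 / 8 := by
    have h3 : wco a x ^ 2 + pco a x ^ 2 = x 0 ^ 2 + x 1 ^ 2 := by
      unfold wco pco
      have := Real.sin_sq_add_cos_sq a
      linear_combination (x 0 ^ 2 + x 1 ^ 2) * this
    nlinarith [sq_nonneg (pco a x)]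
  -- the angular part
  have hzn : ‖zet a x‖ ^ 2 = x 2 ^ 2 + wco a x ^ 2 := zet_normSq a x
  have hzim : (zet a x).im = wco a x := rfl
  have hz2 : (N * J) ^ 2 ≤ ‖zet a x‖ ^ 2 := by rw [hzn]; nlinarith [sq_nonneg (wco a x)]
  have hre : (7 / 8) * (N * J) ^ (2 * (k + 1)) ≤ ((zet a x) ^ (k + 1)).re ^ 2 := by
    have h3 : ((zet a x) ^ (k + 1)).re ^ 2 + ((zet a x) ^ (k + 1)).im ^ 2 =
        ‖zet a x‖ ^ (2 * (k + 1)) := by
      rw [mul_comm 2, pow_mul, ← norm_pow, ← Complex.normSq_eq_norm_sq, Complex.normSq_apply]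
      ring
    have h4 : ((zet a x) ^ (k + 1)).im ^ 2 ≤ J ^ 2 * wco a x ^ 2 * ‖zet a x‖ ^ (2 * k) := by
      have h5 := im_pow_le (zet a x) k
      have h6 := pow_le_pow_left₀ (abs_nonneg _) h5 2
      rw [sq_abs] at h6
      refine h6.trans (le_of_eq ?_)
      rw [mul_pow, mul_pow, sq_abs, hzim, ← pow_mul, mul_comm k 2, hJ]
      push_cast
      ring
    have h5 : (7 / 8) * (N * J) ^ 2 ≤ ‖zet a x‖ ^ 2 - J ^ 2 * wco a x ^ 2 := by
      have h6 : J ^ 2 * wco a x ^ 2 ≤ J ^ 2 * (N ^ 2 / 8) :=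
        mul_le_mul_of_nonneg_left hw (sq_nonneg _)
      nlinarith
    have h6 : (N * J) ^ (2 * k) ≤ ‖zet a x‖ ^ (2 * k) := by
      rw [pow_mul, pow_mul]
      exact pow_le_pow_left₀ (sq_nonneg _) hz2 k
    have h7 : (N * J) ^ (2 * k) * ((7 / 8) * (N * J) ^ 2) ≤
        ‖zet a x‖ ^ (2 * k) * (‖zet a x‖ ^ 2 - J ^ 2 * wco a x ^ 2) :=
      mul_le_mul h6 h5 (by positivity) (by positivity)
    have h8 : ‖zet a x‖ ^ (2 * (k + 1)) = ‖zet a x‖ ^ (2 * k) * ‖zet a x‖ ^ 2 := by ring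
    have h9 : (N * J) ^ (2 * (k + 1)) = (N * J) ^ (2 * k) * (N * J) ^ 2 := by ring
    rw [h9]
    rw [h8] at h3
    nlinarith
  -- the radial part
  have hnx : ‖x‖ ≤ N * J + 17 / 16 * N := by
    apply abs_le_of_sq_le_sq' _ (by positivity) |>.2
    rw [EuclideanSpace.norm_sq_eq, Fin.sum_univ_three]
    simp only [Real.norm_eq_abs, sq_abs]
    have h3 : x 2 ^ 2 ≤ (N * J + N) ^ 2 := pow_le_pow_left₀ (by linarith) h2' 2
    nlinarith [mul_pos hN0 hN0]
  have hexp : Real.exp (-(2 * J + 17 / 8)) ≤ Real.exp (-‖x‖ / N) ^ 2 := by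
    rw [← Real.exp_nat_mul]
    apply Real.exp_le_exp.2
    push_cast
    have h3 : ‖x‖ / N ≤ J + 17 / 16 := by
      rw [div_le_iff₀ hN0]; linarith
    have h4 : -‖x‖ / N = -(‖x‖ / N) := neg_div _ _
    rw [h4]
    linarith
  -- the constant
  have hF := fact_le (k + 1) (by omega)
  rw [← hJ] at hF
  have hFpos : (0 : ℝ) < ((k + 1)! : ℝ) := by positivity
  have hcn := cn_sq (k + 2)
  have hfac : ((k + 2)! : ℝ) = N * ((k + 1)! : ℝ) := by
    rw [Nat.factorial_succ (k + 1)]; push_cast; rw [hN]; push_cast; ring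
  have hring : ringC (k + 2) a x ^ 2 =
      cn (k + 2) ^ 2 * ((zet a x) ^ (k + 1)).re ^ 2 * Real.exp (-‖x‖ / N) ^ 2 := by
    unfold ringC
    rw [show k + 2 - 1 = k + 1 from rfl]
    ring
  rw [hring]
  have hstep : cn (k + 2) ^ 2 * ((7 / 8) * (N * J) ^ (2 * (k + 1))) * Real.exp (-(2 * J + 17 / 8)) ≤
      cn (k + 2) ^ 2 * ((zet a x) ^ (k + 1)).re ^ 2 * Real.exp (-‖x‖ / N) ^ 2 := by
    apply mul_le_mul _ hexp (Real.exp_pos _).le (by positivity)
    exact mul_le_mul_of_nonneg_left hre (sq_nonneg _)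
  refine le_trans ?_ hstep
  rw [hcn, hfac]
  set F : ℝ := ((k + 1)! : ℝ) with hFdef
  set P : ℝ := J ^ (k + 1) * Real.exp (-J) with hP
  have hPpos : 0 < P := by positivity
  have hE : Real.exp (-(2 * J + 17 / 8)) = Real.exp (-J) ^ 2 * Real.exp (-(17 / 8)) := by
    rw [← Real.exp_nat_mul, ← Real.exp_add]
    congr 1; push_cast; ring
  have hval : 2 / (Real.pi * (N * F) ^ 2 * N ^ (2 * (k + 2))) * ((7 / 8) * (N * J) ^ (2 * (k + 1))) *
      Real.exp (-(2 * J + 17 / 8)) = (7 / 4) * P ^ 2 * Real.exp (-(17 / 8)) /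
        (Real.pi * F ^ 2 * N ^ 4) := by
    rw [hE, hP]
    have h3 : N ^ (2 * (k + 2)) = N ^ (2 * (k + 1)) * N ^ 2 := by ring
    rw [h3, mul_pow N J, mul_pow (J ^ (k + 1)), ← pow_mul J, mul_comm (k + 1) 2]
    have hpi := Real.pi_pos
    field_simp
    ring
  rw [hval]
  -- `F ≤ e J P ≤ e N P`
  have hF2 : F ^ 2 ≤ (Real.exp 1 * N * P) ^ 2 := by
    apply pow_le_pow_left₀ hFpos.le
    refine hF.trans ?_
    apply mul_le_mul_of_nonneg_right _ hPpos.le
    apply mul_le_mul_of_nonneg_left _ (Real.exp_pos _).le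
    linarith
  have hnum := numeric
  have hE2 : Real.exp (33 / 8) * Real.exp (-(17 / 8)) = Real.exp 1 ^ 2 := by
    rw [← Real.exp_add, ← Real.exp_nat_mul]; norm_num
  rw [div_le_div_iff₀ (by positivity) (by positivity)]
  have hpi := Real.pi_pos
  have e17 := Real.exp_pos (-(17 / 8) : ℝ)
  calc 1 * (Real.pi * F ^ 2 * N ^ 4) ≤ 1 * (Real.pi * (Real.exp 1 * N * P) ^ 2 * N ^ 4) := by
        gcongr
    _ = (Real.pi * Real.exp 1 ^ 2) * (P ^ 2 * N ^ 6) := by ring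
    _ = (Real.pi * Real.exp (33 / 8)) * Real.exp (-(17 / 8)) * (P ^ 2 * N ^ 6) := by
        rw [← hE2]; ring
    _ ≤ 218 * Real.exp (-(17 / 8)) * (P ^ 2 * N ^ 6) := by gcongr
    _ ≤ (7 / 4 * 125) * Real.exp (-(17 / 8)) * (P ^ 2 * N ^ 6) := by gcongr; norm_num
    _ = 7 / 4 * P ^ 2 * Real.exp (-(17 / 8)) * (125 * N ^ 6) := by ring

theorem bx_eq (n : ℕ) : bx n = (WithLp.ofLp : R3 → (Fin 3 → ℝ)) ⁻¹'
    Set.pi Set.univ (![Icc (-((n : ℝ) / 4)) (n / 4), Icc (-((n : ℝ) / 4)) (n / 4),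
      Icc ((n : ℝ) * ((n : ℝ) - 1)) ((n : ℝ) * ((n : ℝ) - 1) + n)] : Fin 3 → Set ℝ) := by
  ext x
  simp only [bx, mem_ofPred_eq, mem_preimage, mem_pi, mem_univ, true_imp_iff, Fin.forall_fin_succ,
    abs_le]
  simp [mem_Icc]

theorem measurableSet_bx (n : ℕ) : MeasurableSet (bx n) := by
  rw [bx_eq]
  apply (PiLp.volume_preserving_ofLp (Fin 3)).measurable
  apply MeasurableSet.univ_pi
  intro i
  fin_cases i <;> exact measurableSet_Icc

theorem volume_bx (n : ℕ) : volume (bx n) = ENNReal.ofReal ((n : ℝ) ^ 3 / 4) := by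
  have hm : MeasurableSet (Set.pi Set.univ (![Icc (-((n : ℝ) / 4)) (n / 4),
      Icc (-((n : ℝ) / 4)) (n / 4),
      Icc ((n : ℝ) * ((n : ℝ) - 1)) ((n : ℝ) * ((n : ℝ) - 1) + n)] : Fin 3 → Set ℝ)) := by
    apply MeasurableSet.univ_pi
    intro i
    fin_cases i <;> exact measurableSet_Icc
  rw [bx_eq, (PiLp.volume_preserving_ofLp (Fin 3)).measure_preimage hm.nullMeasurableSet,
    volume_pi_pi, Fin.prod_univ_three]
  simp only [Matrix.cons_val_zero, Matrix.cons_val_one, Matrix.cons_val_two, Matrix.head_cons,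
    Matrix.tail_cons, Real.volume_Icc]
  rw [← ENNReal.ofReal_mul (by ring_nf; positivity), ← ENNReal.ofReal_mul (by ring_nf; positivity)]
  congr 1
  ring

theorem M4_pair_ge (n : ℕ) (hn : 2 ≤ n) (a b : ℝ) :
    1 / (100000 * (n : ℝ) ^ 9) ≤ M4 n a b a b := by
  have hn0 : (0 : ℝ) < n := by positivity
  unfold M4
  have hi : Integrable (fun x : R3 => (ringC n a x * ringC n b x) * (ringC n a x * ringC n b x)) :=
    (nice_mul (nice_mul (nice_ringC (by omega) a) (nice_ringC (by omega) b))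
      (nice_mul (nice_ringC (by omega) a) (nice_ringC (by omega) b))).integrable
  have h1 : ∫ x in bx n, (ringC n a x * ringC n b x) * (ringC n a x * ringC n b x) ≤
      ∫ x, (ringC n a x * ringC n b x) * (ringC n a x * ringC n b x) :=
    setIntegral_le_integral hi (Filter.Eventually.of_forall fun x => mul_self_nonneg _)
  refine le_trans ?_ h1
  have hfin : volume (bx n) ≠ ⊤ := by rw [volume_bx]; exact ENNReal.ofReal_ne_top
  have h2 : ∫ _ in bx n, (1 / (125 * (n : ℝ) ^ 6)) * (1 / (125 * (n : ℝ) ^ 6)) ≤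
      ∫ x in bx n, (ringC n a x * ringC n b x) * (ringC n a x * ringC n b x) := by
    apply setIntegral_mono_on (integrableOn_const hfin) hi.integrableOn (measurableSet_bx n)
    intro x hx
    have ha := ringC_sq_ge n hn a x hx
    have hb := ringC_sq_ge n hn b x hx
    calc (1 / (125 * (n : ℝ) ^ 6)) * (1 / (125 * (n : ℝ) ^ 6)) ≤
        ringC n a x ^ 2 * ringC n b x ^ 2 := mul_le_mul ha hb (by positivity) (sq_nonneg _)
      _ = _ := by ring
  refine le_trans ?_ h2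
  rw [setIntegral_const, Measure.real, volume_bx, ENNReal.toReal_ofReal (by positivity), smul_eq_mul]
  rw [div_le_iff₀ (by positivity)]
  have : (n : ℝ) ^ 3 / 4 * (1 / (125 * (n : ℝ) ^ 6) * (1 / (125 * (n : ℝ) ^ 6))) *
      (100000 * (n : ℝ) ^ 9) = 100000 / 62500 := by
    field_simp
    norm_num
  rw [this]
  norm_num

/-- **R2a-PAIR** -/
theorem pair_stmt : PairStmt := fun n m a b hn => M4_pair_ge n hn (rang m a) (rang m b)

end Vale.Agent.P370.H890
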