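import Vale.Agent.P370.H305.OffDefs

/-!
P370, line Q, half (II): the offset identity of the final assembly.
-/

namespace Vale.Agent.P370.H890

open Finset MeasureTheory
open Vale.Agent.P370.H115 Vale.Agent.P370.H305
open Vale.Agent.P363.Stmt (R3)
open Vale.Agent.P370.H624 (Shell Closed Filled)
open Vale.Agent.P370.H98 (uS uT gUS gUT)

noncomputable section

/-- the first-order energy of the closed shells -/
theorem coreV_eq {coreE fE : ℕ → ℝ} {phiC : ℕ → ℝ → ℝ} (hF : FieldStmt coreE fE phiC) {J : ℕ}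
    (hJ : 1 ≤ J) (Sf : Filled J (Closed J)) (hS : ∀ a, Sf.lv a = a.1.1)
    (L : Finset (Fin 3 → ℤ)) (y : (Fin 3 → ℤ) → R3) (hy : ∀ k ∈ L, y k ≠ 0) :
    coreV Sf L y = coreE (J + 1) - ∑ k ∈ L, phiC (J + 1) ‖y k‖ := by
  obtain ⟨K, hF⟩ := hF
  obtain ⟨h1, h2, -, -⟩ := hF J Sf hJ hS
  have e : 2 * ∑ a, lightF L y (Sf.orb a) (Sf.orb a) = -∑ k ∈ L, phiC (J + 1) ‖y k‖ := by
    unfold lightF
    rw [Finset.sum_neg_distrib, Finset.sum_comm, mul_neg, Finset.mul_sum]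
    congr 1
    exact Finset.sum_congr rfl fun k hk => h1 (y k) (hy k hk)
  unfold coreV
  rw [e, h2]
  ring

/-- **the offset identity** -/
theorem offset {coreE fE : ℕ → ℝ} {phiC phiJ : ℕ → ℝ → ℝ} (hF : FieldStmt coreE fE phiC)
    (hL : LightStmt phiJ) (hU : UTwStmt) : ∃ K₀ : ℕ, ∀ K : ℕ, K₀ ≤ K →
    ∀ (J m t : ℕ) (S τ : ℝ) (T : ℕ → ℕ → ℝ) (y : (Fin 3 → ℤ) → R3) (Sf : Filled J (Closed J)),
      3 ≤ J → 2 ≤ m → m ≤ J + 1 → 0 ≤ S → 0 ≤ τ → (∀ a b, |T a b| ≤ τ) → 1 ≤ t →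
      GoodPos J m t S T y → (∀ a, Sf.lv a = a.1.1) →
      |coreV Sf (H198.box (t ^ 4)) y
          + m * (-H198.kap t + 2 * Real.pi / 3 * (t : ℝ) ^ 3 *
              (((J : ℝ) + 1) ^ 2 * (J + 2) * (2 * J + 3) / 2) - S + fE (J + 1))
          + JJ (g0R (J + 1) m)
        - (coreE (J + 1) + m * fE (J + 1)
          - (∑ k ∈ H198.box (t ^ 4), (phiC (J + 1) ‖y k‖ + m * phiJ (J + 1) ‖y k‖))
          - m * S
          + 1 / 2 * ∑ a ∈ range m, ∑ b ∈ (range m).erase a, Dm (J + 1) m a b)| ≤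
        m * (epL K J S τ t + ((J + 1 : ℕ) : ℝ) ^ K * (m : ℝ) ^ 2 * τ *
          Real.exp (-((((J + 1 : ℕ) : ℝ) - 1) / (m : ℝ) ^ 2))) := by
  obtain ⟨K₁, hL⟩ := hL
  obtain ⟨K₂, hU⟩ := hU
  refine ⟨max K₁ K₂, fun K hK J m t S τ T y Sf hJ hm hmJ hS hτ hT ht hy hSf => ?_⟩
  have hK1 : K₁ ≤ K := le_trans (le_max_left _ _) hK
  have hK2 : K₂ ≤ K := le_trans (le_max_right _ _) hK
  have hl := (hL J m t S τ T y hJ (by omega) hmJ hS hτ hT ht hy).2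
  have hu := hU (J + 1) m T τ (by omega) hm hT
  rw [coreV_eq hF (by omega) Sf hSf _ _ (fun k hk => (hy k hk).1), JJ_R, Finset.sum_add_distrib,
    ← Finset.mul_sum]
  have hm0 : (0 : ℝ) ≤ m := Nat.cast_nonneg m
  have hJ0 : (0 : ℝ) ≤ J := Nat.cast_nonneg J
  have e1 : ((J : ℝ) + 2) ^ K₁ * (1 + S + τ) ^ 2 / Real.sqrt t ≤ epL K J S τ t := by
    unfold epL
    have : ((J : ℝ) + 2) ^ K₁ ≤ ((J : ℝ) + 2) ^ K := pow_le_pow_right₀ (by linarith) hK1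
    gcongr
  have e2 : ((J + 1 : ℕ) : ℝ) ^ K₂ * (m : ℝ) ^ 2 * τ *
      Real.exp (-((((J + 1 : ℕ) : ℝ) - 1) / (m : ℝ) ^ 2)) ≤
      ((J + 1 : ℕ) : ℝ) ^ K * (m : ℝ) ^ 2 * τ *
      Real.exp (-((((J + 1 : ℕ) : ℝ) - 1) / (m : ℝ) ^ 2)) := by
    have : ((J + 1 : ℕ) : ℝ) ^ K₂ ≤ ((J + 1 : ℕ) : ℝ) ^ K :=
      pow_le_pow_right₀ (by push_cast; linarith) hK2
    gcongr
  set A : ℝ := ∑ k ∈ H198.box (t ^ 4), phiJ (J + 1) ‖y k‖
  set P : ℝ := ∑ k ∈ H198.box (t ^ 4), phiC (J + 1) ‖y k‖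
  set W : ℝ := ∫ x, uT (J + 1) m T x * wn (J + 1) x
  set Q : ℝ := 2 * Real.pi / 3 * (t : ℝ) ^ 3 *
        (((J : ℝ) + 1) ^ 2 * (J + 2) * (2 * J + 3) / 2)
  have e3 : coreE (J + 1) - P + m * (-H198.kap t + Q - S + fE (J + 1)) +
      1 / 2 * ∑ a ∈ range m, ∑ b ∈ (range m).erase a, Dm (J + 1) m a b
      - (coreE (J + 1) + m * fE (J + 1) - (P + m * A) - m * S
        + 1 / 2 * ∑ a ∈ range m, ∑ b ∈ (range m).erase a, Dm (J + 1) m a b) =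
      m * ((A - H198.kap t + Q + W) - W) := by ring
  rw [e3, abs_mul, abs_of_nonneg hm0]
  refine mul_le_mul_of_nonneg_left ?_ hm0
  refine (abs_sub _ _).trans (add_le_add (hl.trans e1) (hu.trans e2))

/-- **OFF** -/
theorem offStmt {coreE fE : ℕ → ℝ} {phiC phiJ : ℕ → ℝ → ℝ} (hF : FieldStmt coreE fE phiC)
    (hL : LightStmt phiJ) (hU : UTwStmt) : OffStmt coreE fE phiC phiJ := by
  obtain ⟨K, h⟩ := offset hF hL hU
  exact ⟨K, fun J m t S τ T y Sf h1 h2 h3 h4 h5 h6 h7 h8 h9 =>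
    h K le_rfl J m t S τ T y Sf h1 h2 h3 h4 h5 h6 h7 h8 h9⟩

theorem off_eq_offR (coreE fE : ℕ → ℝ) (phiC phiJ : ℕ → ℝ → ℝ) {K : Expo} {D : ℕ}
    {E : List (ℕ × ℕ)} (d : Design K D E) {J t : ℕ} (hJ : J + 1 = base E ^ K.kn)
    (ht : t = base E ^ K.kt) :
    off coreE fE phiC phiJ d = offR coreE fE phiC phiJ J D t (d.σ * kap (J + 1)) d.y := by
  unfold off offR
  rw [hJ, ht]

/-- the offset of a design in terms of `J`, `t` -/
theorem off_eq (coreE fE : ℕ → ℝ) (phiC phiJ : ℕ → ℝ → ℝ) {K : Expo} {D : ℕ} {E : List (ℕ × ℕ)}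
    (d : Design K D E) {J t : ℕ} (hJ : J + 1 = base E ^ K.kn) (ht : t = base E ^ K.kt) :
    off coreE fE phiC phiJ d = coreE (J + 1) + D * fE (J + 1)
          - (∑ k ∈ H198.box (t ^ 4), (phiC (J + 1) ‖d.y k‖ + D * phiJ (J + 1) ‖d.y k‖))
          - D * (d.σ * kap (J + 1))
          + 1 / 2 * ∑ a ∈ range D, ∑ b ∈ (range D).erase a, Dm (J + 1) D a b := by
  unfold off
  rw [hJ, ht]

/-- the positions of a design -/
theorem goodPos_of (hUD : UDStmt) {K : Expo} {D : ℕ} {E : List (ℕ × ℕ)}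
    (d : Design K D E) {J t : ℕ} (hJ : J + 1 = base E ^ K.kn) (h3 : 3 ≤ J)
    (ht : t = base E ^ K.kt) :
    GoodPos J D t (d.σ * kap (J + 1)) (fun a b => d.τ a b * Mm (J + 1) D a b) d.y := by
  intro k hk
  subst ht
  refine ⟨d.hy0 k hk, ?_⟩
  have h := d.hy k hk
  rw [← hJ] at h
  have hg := (hUD (J + 1) D d.σ d.τ (by omega)).2
  unfold dpt at h
  rw [hg] at h
  push_cast
  exact h

end

end Vale.Agent.P370.H890
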