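import Vale.Agent.P370.H305.Steps
import Vale.Agent.P370.H115.L1
import Vale.Agent.P370.H890.Pair

/-! **Steps ST2, ST3, ST4** of `H305/Steps.lean`: matrix elements of the hopping potential, overlaps
of the rings. -/

namespace Vale.Agent.P370.H890

open MeasureTheory Finset
open Vale.Agent.P370.H115 Vale.Agent.P370.H98
open Vale.Agent.P370.H305 (wn UTStmt OvStmt UTwStmt WnStmt)
open Vale.Agent.P363.Stmt (R3)
open Vale.Agent.P363.R.H10
open scoped Nat

/-! ### ST3 -/

/-- **ST3** overlaps of the rings -/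
theorem ovStmt : OvStmt := by
  intro n m i j hn hm hi hj
  obtain ⟨h1, -, h3⟩ := overlap n (rang m i) (rang m j) hn
  have hm0 : (0 : ℝ) < m := by positivity
  refine ⟨?_, h3⟩
  change |(∫ x, ringC n (rang m i) x * ringC n (rang m j) x) - if i = j then 1 else 0| ≤ _
  rw [h1]
  by_cases hij : i = j
  · subst hij
    rw [if_pos rfl, sub_self, Real.cos_zero]
    have h0 : n - 1 ≠ 0 := by omega
    norm_num [h0]
    positivity
  · rw [if_neg hij, sub_zero]
    have hc := cos_bound hm hi hj hij
    set c := Real.cos (rang m i - rang m j) with hcdef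
    have hcc := abs_le.1 hc
    have hc1 : |c| ≤ 1 := Real.abs_cos_le_one _
    have hcc1 := abs_le.1 hc1
    have key : ∀ u : ℝ, 0 ≤ u → u ≤ 1 - 1 / (m : ℝ) ^ 2 →
        u ^ (n - 1) ≤ Real.exp (-((n - 1) / (m : ℝ) ^ 2)) := by
      intro u hu0 hu
      have h4 : u ≤ Real.exp (-(1 / (m : ℝ) ^ 2)) := by
        have := Real.add_one_le_exp (-(1 / (m : ℝ) ^ 2))
        linarith
      refine (pow_le_pow_left₀ hu0 h4 (n - 1)).trans (le_of_eq ?_)
      rw [← Real.exp_nat_mul]
      congr 1
      rw [Nat.cast_sub (by omega)]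
      push_cast
      ring
    have e1 : (2 : ℝ) / (m : ℝ) ^ 2 = 2 * (1 / (m : ℝ) ^ 2) := by ring
    rw [e1] at hcc
    have k1 := key ((1 + c) / 2) (by linarith) (by linarith)
    have k2 := key ((1 - c) / 2) (by linarith) (by linarith)
    have p1 : 0 ≤ ((1 + c) / 2) ^ (n - 1) := pow_nonneg (by linarith) _
    have p2 : 0 ≤ ((1 - c) / 2) ^ (n - 1) := pow_nonneg (by linarith) _
    rw [abs_of_nonneg (by positivity)]
    linarith

/-! ### linearity -/

/-- the hopping potential integrated against a nice function -/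
theorem int_uT {w : R3 → ℝ} (hw : Nice w) {n : ℕ} (hn : 2 ≤ n) (m : ℕ) (T : ℕ → ℕ → ℝ) :
    ∫ x, uT n m T x * w x = -∑ b ∈ range m, ∑ a ∈ range b,
      T a b / Mab n m a b * ∫ x, (rC n m a x * rC n m b x) * w x := by
  have hi : ∀ a b, Integrable (fun x => (rC n m a x * rC n m b x) * w x) := fun a b =>
    (nice_mul (nice_mul (nice_ringC (by omega) _) (nice_ringC (by omega) _)) hw).integrable
  have h1 : ∀ x, uT n m T x * w x = -∑ b ∈ range m, ∑ a ∈ range b,
      T a b / Mab n m a b * ((rC n m a x * rC n m b x) * w x) := by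
    intro x
    unfold uT
    rw [neg_mul, Finset.sum_mul]
    congr 1
    refine Finset.sum_congr rfl fun b _ => ?_
    rw [Finset.sum_mul]
    exact Finset.sum_congr rfl fun a _ => by ring
  simp only [h1]
  rw [integral_neg, integral_finsetSum _ fun b _ => integrable_finsetSum _ fun a _ =>
    (hi a b).const_mul _]
  congr 1
  refine Finset.sum_congr rfl fun b _ => ?_
  rw [integral_finsetSum _ fun a _ => (hi a b).const_mul _]
  exact Finset.sum_congr rfl fun a _ => integral_const_mul _ _

theorem sum_pair_le {m : ℕ} {F : ℕ → ℕ → ℝ} {c : ℝ} (hc : 0 ≤ c)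
    (h : ∀ b < m, ∀ a < b, |F a b| ≤ c) :
    |∑ b ∈ range m, ∑ a ∈ range b, F a b| ≤ (m : ℝ) ^ 2 * c := by
  have h1 : ∀ b ∈ range m, |∑ a ∈ range b, F a b| ≤ m * c := by
    intro b hb
    have hbm := Finset.mem_range.1 hb
    refine (Finset.abs_sum_le_sum_abs _ _).trans ?_
    refine (Finset.sum_le_card_nsmul _ _ c fun a ha => h b hbm a (Finset.mem_range.1 ha)).trans ?_
    rw [Finset.card_range, nsmul_eq_mul]
    apply mul_le_mul_of_nonneg_right _ hc
    exact_mod_cast hbm.le
  refine (Finset.abs_sum_le_sum_abs _ _).trans ?_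
  refine (Finset.sum_le_card_nsmul _ _ _ h1).trans (le_of_eq ?_)
  rw [Finset.card_range, nsmul_eq_mul]
  ring

theorem Mab_pos {n : ℕ} (hn : 2 ≤ n) (m a b : ℕ) : 0 < Mab n m a b :=
  lt_of_lt_of_le (by positivity) (pair_stmt n m a b hn)

theorem inv_Mab_le {n : ℕ} (hn : 2 ≤ n) (m a b : ℕ) :
    1 / Mab n m a b ≤ 100000 * (n : ℝ) ^ 9 := by
  have h := pair_stmt n m a b hn
  have h0 := Mab_pos hn m a b
  rw [div_le_iff₀ (by positivity)] at h
  rw [div_le_iff₀ h0]
  linarith

/-! ### ST2 -/

/-- **ST2** matrix elements of the hopping potential in the rings -/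
theorem utStmt (hM : MixStmt) (hK : KapStmt) : UTStmt := by
  intro n m p q T τ hn hm hp hq hT
  have hn0 : (0 : ℝ) < n := by positivity
  have hτ : 0 ≤ τ := (abs_nonneg _).trans (hT 0 0)
  have hw : Nice (fun x => rC n m p x * rC n m q x) :=
    nice_mul (nice_ringC (by omega) _) (nice_ringC (by omega) _)
  rw [int_uT hw hn m T]
  set E : ℝ := Real.exp (-((n - 1) / (8 * (m : ℝ) ^ 4))) with hE
  have hE0 : 0 < E := Real.exp_pos _
  -- the resonant term
  have hres : (if p = q then 0 else T (min p q) (max p q)) =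
      ∑ b ∈ range m, ∑ a ∈ range b,
        (if a = min p q ∧ b = max p q then T a b else 0) := by
    rcases lt_trichotomy p q with h | h | h
    · rw [if_neg h.ne, min_eq_left h.le, max_eq_right h.le,
        Finset.sum_eq_single_of_mem q (Finset.mem_range.2 hq)
          (fun b _ hb => Finset.sum_eq_zero fun a _ => if_neg fun h' => hb h'.2),
        Finset.sum_eq_single_of_mem p (Finset.mem_range.2 h)
          (fun a _ ha => if_neg fun h' => ha h'.1), if_pos ⟨rfl, rfl⟩]
    · subst h
      rw [if_pos rfl, min_self, max_self]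
      symm
      refine Finset.sum_eq_zero fun b _ => Finset.sum_eq_zero fun a ha => if_neg fun h' => ?_
      have := Finset.mem_range.1 ha
      omega
    · rw [if_neg h.ne', min_eq_right h.le, max_eq_left h.le,
        Finset.sum_eq_single_of_mem p (Finset.mem_range.2 hp)
          (fun b _ hb => Finset.sum_eq_zero fun a _ => if_neg fun h' => hb h'.2),
        Finset.sum_eq_single_of_mem q (Finset.mem_range.2 h)
          (fun a _ ha => if_neg fun h' => ha h'.1), if_pos ⟨rfl, rfl⟩]
  have hval : (-∑ b ∈ range m, ∑ a ∈ range b,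
      T a b / Mab n m a b * ∫ x, (rC n m a x * rC n m b x) * (rC n m p x * rC n m q x)) +
      (if p = q then 0 else T (min p q) (max p q)) =
      -∑ b ∈ range m, ∑ a ∈ range b, (T a b / Mab n m a b *
        (∫ x, (rC n m a x * rC n m b x) * (rC n m p x * rC n m q x)) -
          (if a = min p q ∧ b = max p q then T a b else 0)) := by
    rw [hres]
    simp only [Finset.sum_sub_distrib]
    ring
  rw [hval, abs_neg]
  have hbound : ∀ b < m, ∀ a < b, |T a b / Mab n m a b *
        (∫ x, (rC n m a x * rC n m b x) * (rC n m p x * rC n m q x)) -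
          (if a = min p q ∧ b = max p q then T a b else 0)| ≤
      1600000 * (n : ℝ) ^ 6 * τ * E := by
    intro b hb a hab
    have hM0 := Mab_pos hn m a b
    by_cases hr : a = min p q ∧ b = max p q
    · rw [if_pos hr]
      have hI : ∫ x, (rC n m a x * rC n m b x) * (rC n m p x * rC n m q x) = Mab n m a b := by
        unfold Mab M4
        congr 1
        funext x
        change _ = (rC n m a x * rC n m b x) * (rC n m a x * rC n m b x)
        obtain ⟨h1, h2⟩ := hr
        rcases le_total p q with h | h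
        · rw [min_eq_left h] at h1
          rw [max_eq_right h] at h2
          rw [h1, h2]
        · rw [min_eq_right h] at h1
          rw [max_eq_left h] at h2
          rw [h1, h2]; ring
      rw [hI, div_mul_cancel₀ _ hM0.ne', sub_self, abs_zero]
      positivity
    · rw [if_neg hr, sub_zero]
      have hnr : ¬ ((p = a ∧ q = b) ∨ (p = b ∧ q = a)) := by
        rintro (⟨h1, h2⟩ | ⟨h1, h2⟩)
        · exact hr ⟨by omega, by omega⟩
        · exact hr ⟨by omega, by omega⟩
      have h1 : |∫ x, (rC n m a x * rC n m b x) * (rC n m p x * rC n m q x)| ≤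
          16 * (n : ℝ) ^ 2 * Vale.Agent.P370.H98.kap n * E :=
        hM n m a b p q hn (hab.trans hb) hb hp hq hab.ne hnr
      have h2 : Vale.Agent.P370.H98.kap n ≤ 1 / (n : ℝ) ^ 5 := (hK n hn).2.2
      rw [abs_mul, abs_div, abs_of_pos hM0]
      have h3 : |T a b| / Mab n m a b ≤ τ * (100000 * (n : ℝ) ^ 9) := by
        rw [div_eq_mul_one_div]
        exact mul_le_mul (hT a b) (inv_Mab_le hn m a b) (by positivity) hτ
      have h4 : 16 * (n : ℝ) ^ 2 * Vale.Agent.P370.H98.kap n * E ≤
          16 * (n : ℝ) ^ 2 * (1 / (n : ℝ) ^ 5) * E := by gcongr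
      calc |T a b| / Mab n m a b *
          |∫ x, (rC n m a x * rC n m b x) * (rC n m p x * rC n m q x)|
          ≤ τ * (100000 * (n : ℝ) ^ 9) * (16 * (n : ℝ) ^ 2 * (1 / (n : ℝ) ^ 5) * E) :=
            mul_le_mul h3 (h1.trans h4) (abs_nonneg _) (by positivity)
        _ = 1600000 * (n : ℝ) ^ 6 * τ * E := by
            field_simp
            ring
  refine (sum_pair_le (by positivity) hbound).trans (le_of_eq ?_)
  ring

/-! ### ST4 -/

theorem nice_wn {n : ℕ} (hn : 1 ≤ n) : Nice (wn n) := by
  have hn0 : (0 : ℝ) < n := by positivity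
  have hk : (0 : ℝ) < 2 / n := by positivity
  set c : ℝ := 1 / (4 * Real.pi * (Nat.factorial (2 * n) : ℝ) * ((n : ℝ) / 2) ^ (2 * n + 1)) with hc
  have h := nice_of_exp (q := fun x : R3 => c * ‖x‖ ^ (2 * (n - 1))) (by fun_prop) hk
    (2 * (n - 1)) (C := c) (by positivity) (by
      intro x
      have hc0 : 0 ≤ c := by positivity
      rw [abs_of_nonneg (by positivity)]
      apply mul_le_mul_of_nonneg_left _ hc0
      exact pow_le_pow_left₀ (norm_nonneg _) (by linarith) _)
  have he : wn n = fun x : R3 => (c * ‖x‖ ^ (2 * (n - 1))) * Real.exp (-(2 / n) * ‖x‖) := by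
    funext x
    unfold wn
    rw [hc]
    have : -(2 * ‖x‖ / (n : ℝ)) = -(2 / n) * ‖x‖ := by ring
    rw [this]
    ring
  rw [he]
  exact h

/-- **ST4** the hopping potential in the radial density is small -/
theorem utwStmt {phiJ : ℕ → ℝ → ℝ} (hW : WnStmt phiJ) : UTwStmt := by
  obtain ⟨K, hK⟩ := hW
  refine ⟨K + 27, fun n m T τ hn hm hT => ?_⟩
  have hn0 : (0 : ℝ) < n := by positivity
  have hn2 : (2 : ℝ) ≤ n := by exact_mod_cast hn
  have hτ : 0 ≤ τ := (abs_nonneg _).trans (hT 0 0)
  rw [int_uT (nice_wn (by omega)) hn m T, abs_neg]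
  set E : ℝ := Real.exp (-((n - 1) / (m : ℝ) ^ 2)) with hE
  have hE0 : 0 < E := Real.exp_pos _
  have hbound : ∀ b < m, ∀ a < b, |T a b / Mab n m a b *
        (∫ x, (rC n m a x * rC n m b x) * wn n x)| ≤ (n : ℝ) ^ (K + 27) * τ * E := by
    intro b hb a hab
    have hM0 := Mab_pos hn m a b
    have h1 : |∫ x, (rC n m a x * rC n m b x) * wn n x| ≤
        (n : ℝ) ^ K * |∫ x, rC n m a x * rC n m b x| :=
      (hK n hn).2.2.2.2.2 (rang m a) (rang m b)
    have h2 : |∫ x, rC n m a x * rC n m b x| ≤ 2 * E := by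
      have := (ovStmt n m a b hn hm (hab.trans hb) hb).1
      rwa [if_neg hab.ne, sub_zero] at this
    rw [abs_mul, abs_div, abs_of_pos hM0]
    have h3 : |T a b| / Mab n m a b ≤ τ * (100000 * (n : ℝ) ^ 9) := by
      rw [div_eq_mul_one_div]
      exact mul_le_mul (hT a b) (inv_Mab_le hn m a b) (by positivity) hτ
    have h4 : (200000 : ℝ) ≤ (n : ℝ) ^ 18 := by
      calc (200000 : ℝ) ≤ 2 ^ 18 := by norm_num
        _ ≤ (n : ℝ) ^ 18 := pow_le_pow_left₀ (by norm_num) hn2 18
    calc |T a b| / Mab n m a b * |∫ x, (rC n m a x * rC n m b x) * wn n x|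
        ≤ τ * (100000 * (n : ℝ) ^ 9) * ((n : ℝ) ^ K * (2 * E)) := by
          apply mul_le_mul h3 _ (abs_nonneg _) (by positivity)
          exact h1.trans (mul_le_mul_of_nonneg_left h2 (by positivity))
      _ = 200000 * ((n : ℝ) ^ (K + 9) * τ * E) := by ring
      _ ≤ (n : ℝ) ^ 18 * ((n : ℝ) ^ (K + 9) * τ * E) :=
          mul_le_mul_of_nonneg_right h4 (by positivity)
      _ = (n : ℝ) ^ (K + 27) * τ * E := by ring
  refine (sum_pair_le (by positivity) hbound).trans (le_of_eq ?_)
  ring

end Vale.Agent.P370.H890
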