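import Vale.Agent.P370.H890.Off
import Vale.Agent.P370.H253.LB2
import Vale.Agent.P370.H253.Diag

/-!
P370, line Q, half (II): the hopping parameters of a design, cut to the indices which are used.
-/

namespace Vale.Agent.P370.H890

open Finset MeasureTheory
open Vale.Agent.P370.H115 Vale.Agent.P370.H305
open Vale.Agent.P363.Stmt (R3)
open Vale.Agent.P370.H624 (Shell Closed Filled)
open Vale.Agent.P370.H98 (uS uT gUS gUT)

noncomputable section

/-- the parameters which are used -/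
def cutT (D : ℕ) (T : ℕ → ℕ → ℝ) (a b : ℕ) : ℝ := if a < b ∧ b < D then T a b else 0

theorem uT_cut (n m : ℕ) (T : ℕ → ℕ → ℝ) : uT n m (cutT m T) = uT n m T := by
  funext x
  unfold uT
  congr 1
  refine sum_congr rfl fun b hb => sum_congr rfl fun a ha => ?_
  rw [mem_range] at hb ha
  unfold cutT
  rw [if_pos ⟨ha, hb⟩]

theorem gUT_cut (n m : ℕ) (T : ℕ → ℕ → ℝ) : gUT n m (cutT m T) = gUT n m T := by
  funext x
  unfold gUT
  congr 1
  refine sum_congr rfl fun b hb => sum_congr rfl fun a ha => ?_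
  rw [mem_range] at hb ha
  unfold cutT
  rw [if_pos ⟨ha, hb⟩]

theorem hR_cut {m : ℕ} (T : ℕ → ℕ → ℝ) {i j : Fin m} (h : i ≠ j) : hR (cutT m T) i j = hR T i j := by
  unfold hR cutT
  rw [if_pos]
  refine ⟨?_, ?_⟩
  · rcases lt_or_gt_of_ne h with h | h
    · rw [min_eq_left h.le, max_eq_right h.le]; exact h
    · rw [min_eq_right h.le, max_eq_left h.le]; exact h
  · exact (max i j).2

theorem goodPos_cut {J m t : ℕ} {S : ℝ} {T : ℕ → ℕ → ℝ} {y : (Fin 3 → ℤ) → R3}
    (h : GoodPos J m t S T y) : GoodPos J m t S (cutT m T) y := by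
  unfold GoodPos at *
  rw [gUT_cut]
  exact h

/-- upper bound of `Dl` -/
theorem Dl_le {n m a b : ℕ} (hn : 2 ≤ n) : Dl n m a b ≤ 3000 * (n : ℝ) ^ (-(13 / 7) : ℝ) := by
  have h1 := (le_abs_self _).trans (H253.Dm_le_pow hn m a a)
  have h2 : 0 ≤ Dm n m a b := by
    unfold Dm rho P363.R.H10.DD
    refine integral_nonneg fun x => integral_nonneg fun y => ?_
    simp only [Pi.zero_apply]
    positivity
  unfold Dl
  linarith

/-- bound of the parameters of a design -/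
theorem cutT_abs {K : Expo} {D : ℕ} {E : List (ℕ × ℕ)} (d : Design K D E) {J : ℕ}
    (hJ : J + 1 = base E ^ K.kn) (hD : 2 ≤ D) (hn : 65536 * D ^ 4 ≤ J + 1) (a b : ℕ) :
    |cutT D (fun a b => d.τ a b * Mm (J + 1) D a b) a b| ≤
      Real.sqrt (base E * (3000 * ((J + 1 : ℕ) : ℝ) ^ (-(13 / 7) : ℝ)) *
        (1 / (base E : ℝ) ^ K.ks)) := by
  unfold cutT
  split_ifs with h
  swap
  · rw [abs_zero]; exact Real.sqrt_nonneg _
  refine Real.abs_le_sqrt ?_
  have hB2 : (2 : ℝ) ≤ (base E : ℝ) := by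
    unfold base; push_cast; linarith [Nat.cast_nonneg (α := ℝ) E.length]
  have hB0 : (0 : ℝ) < (base E : ℝ) := by linarith
  have hBs : (0 : ℝ) < (base E : ℝ) ^ K.ks := pow_pos hB0 _
  have h1 := d.hτ a b h.1 h.2
  rw [← hJ] at h1
  have hDl : 0 < Dl (J + 1) D a b :=
    lt_of_lt_of_le (by positivity) (H253.Dl_lower hD hn (h.1.trans h.2) h.2 h.1.ne)
  have hD2 : 1 ≤ D ^ 4 := Nat.one_le_pow _ _ (by omega)
  have hDu : Dl (J + 1) D a b ≤ 3000 * ((J + 1 : ℕ) : ℝ) ^ (-(13 / 7) : ℝ) :=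
    Dl_le (by omega)
  set δ := Dl (J + 1) D a b
  set U : ℝ := 3000 * ((J + 1 : ℕ) : ℝ) ^ (-(13 / 7) : ℝ)
  set T := d.τ a b * Mm (J + 1) D a b
  have h2 := (abs_le.1 h1).2
  have hc : (E.count (a, b) : ℝ) ≤ base E - 2 := by
    have : (E.count (a, b) : ℝ) ≤ E.length := by exact_mod_cast List.count_le_length
    unfold base
    push_cast
    linarith
  have h3 : 2 * T ^ 2 / δ ≤ base E / (base E : ℝ) ^ K.ks := by
    have e1 : (E.count (a, b) : ℝ) / (base E : ℝ) ^ K.ks ≤ (base E - 2) / (base E : ℝ) ^ K.ks := by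
      gcongr
    have e2 : 1 / (32 * (base E : ℝ) ^ 2 * (base E : ℝ) ^ K.ks) ≤ 2 / (base E : ℝ) ^ K.ks := by
      rw [div_le_div_iff₀ (by positivity) hBs]
      have : 1 ≤ 2 * (32 * (base E : ℝ) ^ 2) := by nlinarith
      nlinarith
    have e3 : (base E - 2) / (base E : ℝ) ^ K.ks + 2 / (base E : ℝ) ^ K.ks =
        base E / (base E : ℝ) ^ K.ks := by ring
    linarith
  rw [div_le_iff₀ hDl] at h3
  have h4 : base E / (base E : ℝ) ^ K.ks * δ ≤ base E / (base E : ℝ) ^ K.ks * U := by gcongr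
  have h5 : base E * U * (1 / (base E : ℝ) ^ K.ks) = base E / (base E : ℝ) ^ K.ks * U := by ring
  rw [h5]
  nlinarith [sq_nonneg T]

end

end Vale.Agent.P370.H890
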